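import Vale.Agent.P123.Bdl.B2
import Mathlib.Analysis.Matrix.Order

/-! # P123: a Hilbert-Schmidt Cauchy-Schwarz inequality for positive forms -/

open Matrix
open scoped ComplexConjugate ComplexOrder

namespace Vale.Agent.P123.H290

variable {H : Type*} [NormedAddCommGroup H] [InnerProductSpace ℂ H]

theorem gram_posSemidef {τ : Type*} [Fintype τ] {M : H →L[ℂ] H}
    (hs : ∀ u v : H, inner ℂ u (M v) = conj (inner ℂ v (M u)))
    (hp : ∀ u : H, 0 ≤ (inner ℂ u (M u)).re) (z : τ → H) :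
    (Matrix.of fun p q => inner ℂ (z p) (M (z q))).PosSemidef := by
  rw [Matrix.posSemidef_iff_dotProduct_mulVec]
  refine ⟨?_, fun v => ?_⟩
  · ext p q
    simp only [Matrix.conjTranspose_apply, Matrix.of_apply]
    exact (hs (z p) (z q)).symm
  · have e : star v ⬝ᵥ ((Matrix.of fun p q => inner ℂ (z p) (M (z q))) *ᵥ v)
        = inner ℂ (∑ p, v p • z p) (M (∑ q, v q • z q)) := by
      rw [map_sum, sum_inner]
      simp only [dotProduct, Matrix.mulVec, Matrix.of_apply, Pi.star_apply]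
      refine Finset.sum_congr rfl fun p _ => ?_
      rw [inner_sum, Finset.mul_sum, Finset.sum_congr rfl]
      intro q _
      rw [map_smul, inner_smul_left, inner_smul_right, RCLike.star_def]
      ring
    rw [e, Complex.nonneg_iff]
    refine ⟨hp _, ?_⟩
    have h1 := hs (∑ p, v p • z p) (∑ p, v p • z p)
    have h2 := congrArg Complex.im h1
    rw [Complex.conj_im] at h2
    linarith

/-- Hilbert-Schmidt form of the Cauchy-Schwarz inequality. -/
theorem gram_ineq {ι κ : Type*} [Fintype ι] [Fintype κ] {M : H →L[ℂ] H}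
    (hs : ∀ u v : H, inner ℂ u (M v) = conj (inner ℂ v (M u)))
    (hp : ∀ u : H, 0 ≤ (inner ℂ u (M u)).re) (x : κ → H) (y : ι → H) :
    2 * ∑ i, ∑ k, ‖inner ℂ (y i) (M (x k))‖ ^ 2 ≤
      ∑ k, ∑ l, ‖inner ℂ (x k) (M (x l))‖ ^ 2 + ∑ i, ∑ j, ‖inner ℂ (y i) (M (y j))‖ ^ 2 := by
  set z : ι ⊕ κ → H := Sum.elim y x with hz
  have hG := gram_posSemidef hs hp z
  have hH := hG.hadamard hG.transpose
  rw [Matrix.posSemidef_iff_dotProduct_mulVec] at hH
  set v : ι ⊕ κ → ℂ := Sum.elim (fun _ => 1) (fun _ => -1) with hv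
  have h1 := hH.2 v
  have hsq : ∀ p q, inner ℂ (z p) (M (z q)) * inner ℂ (z q) (M (z p))
      = ((‖inner ℂ (z p) (M (z q))‖ ^ 2 : ℝ) : ℂ) := by
    intro p q
    rw [hs (z q) (z p), Complex.mul_conj, Complex.normSq_eq_norm_sq]
  have e : star v ⬝ᵥ (((Matrix.of fun p q => inner ℂ (z p) (M (z q))) ⊙
      (Matrix.of fun p q => inner ℂ (z p) (M (z q)))ᵀ) *ᵥ v)
      = ((∑ p, ∑ q, (v p).re * (v q).re * ‖inner ℂ (z p) (M (z q))‖ ^ 2 : ℝ) : ℂ) := by
    simp only [dotProduct, Matrix.mulVec, Matrix.of_apply, Pi.star_apply, Matrix.hadamard_apply,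
      Matrix.transpose_apply, hsq]
    push_cast
    refine Finset.sum_congr rfl fun p _ => ?_
    rw [Finset.mul_sum]
    refine Finset.sum_congr rfl fun q _ => ?_
    have hvr : ∀ p, v p = (((v p).re : ℝ) : ℂ) ∧ star (v p) = (((v p).re : ℝ) : ℂ) := by
      intro p
      rcases p with i | k <;> simp [hv]
    rw [(hvr p).2]
    conv_lhs => rw [(hvr q).1]
    ring
  rw [e, Complex.zero_le_real] at h1
  simp only [Fintype.sum_sum_type, hv, hz, Sum.elim_inl, Sum.elim_inr, Complex.one_re,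
    Complex.neg_re] at h1
  have h2 : ∑ k, ∑ i, ‖inner ℂ (x k) (M (y i))‖ ^ 2 = ∑ i, ∑ k, ‖inner ℂ (y i) (M (x k))‖ ^ 2 := by
    rw [Finset.sum_comm]
    refine Finset.sum_congr rfl fun i _ => Finset.sum_congr rfl fun k _ => ?_
    rw [hs (x k) (y i), RCLike.norm_conj]
  simp only [Finset.sum_add_distrib, one_mul, neg_mul, mul_neg, neg_neg, Finset.sum_neg_distrib,
    mul_one] at h1
  rw [h2] at h1
  linarith

end Vale.Agent.P123.H290
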