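import Vale.Agent.P123.H290.Defs

/-! # P123: norms of operator matrices -/

namespace Vale.Agent.P123.H290

section op

variable {H : Type*} [NormedAddCommGroup H] [InnerProductSpace ℂ H]
variable {ι κ : Type*} [Fintype ι] [Fintype κ]

theorem opMatrix_apply (T : Matrix ι κ (H →L[ℂ] H)) (x : PiLp 2 (fun _ : κ => H)) (i : ι) :
    opMatrix T x i = ∑ j, T i j (x j) := by
  simp [opMatrix]

theorem norm_opMatrix_le (T : Matrix ι κ (H →L[ℂ] H)) {c : ℝ} (hc : 0 ≤ c)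
    (h : ∀ x : κ → H, ∑ i, ‖∑ j, T i j (x j)‖ ^ 2 ≤ c ^ 2 * ∑ j, ‖x j‖ ^ 2) :
    ‖opMatrix T‖ ≤ c := by
  refine ContinuousLinearMap.opNorm_le_bound _ hc fun x => ?_
  have h1 := h (fun j => x j)
  rw [PiLp.norm_eq_of_L2, PiLp.norm_eq_of_L2]
  simp only [opMatrix_apply]
  rw [← Real.sqrt_sq hc, ← Real.sqrt_mul (sq_nonneg c)]
  exact Real.sqrt_le_sqrt h1

theorem sq_of_norm_opMatrix_le (T : Matrix ι κ (H →L[ℂ] H)) {c : ℝ}
    (h : ‖opMatrix T‖ ≤ c) (x : κ → H) :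
    ∑ i, ‖∑ j, T i j (x j)‖ ^ 2 ≤ c ^ 2 * ∑ j, ‖x j‖ ^ 2 := by
  have h1 := (opMatrix T).le_of_opNorm_le h (WithLp.toLp 2 x)
  rw [PiLp.norm_eq_of_L2, PiLp.norm_eq_of_L2] at h1
  simp only [opMatrix_apply] at h1
  have h2 := pow_le_pow_left₀ (Real.sqrt_nonneg _) h1 2
  rw [mul_pow, Real.sq_sqrt (Finset.sum_nonneg fun _ _ => by positivity),
    Real.sq_sqrt (Finset.sum_nonneg fun _ _ => by positivity)] at h2
  exact h2

end op

end Vale.Agent.P123.H290
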