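import Vale.Agent.P123.H290.Red
import Vale.Agent.P123.H290.Gram
import Vale.Agent.P123.H290.Op

/-! # P123: the matrix-valued inequality with constant two in finite dimension -/

open Complex MeasureTheory Set Filter Topology Polynomial
open scoped Real ComplexConjugate

namespace Vale.Agent.P123.H290

open Vale.Agent.P123 Vale.Agent.P123.Dom

variable {D : Dom}
variable {H : Type*} [NormedAddCommGroup H] [InnerProductSpace ℂ H] [CompleteSpace H]
variable {A : H →L[ℂ] H} {η : ℝ} {w0 : ℝ → ℝ}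

/-- weighted square norm of the coefficient of the Cauchy density -/
noncomputable def nn (D : Dom) (A : H →L[ℂ] H) (w0 : ℝ → ℝ) (u v : H) : ℝ :=
  ∫ s in (0:ℝ)..(2*π), ‖D.X A u v s‖ ^ 2 / w0 s

/-- the total weight of a pair of vectors -/
noncomputable def aa (D : Dom) (A : H →L[ℂ] H) (w0 : ℝ → ℝ) (u v : H) : ℝ :=
  ‖inner ℂ u v‖ ^ 2 + nn D A w0 u v

omit [CompleteSpace H] in
theorem nn_nonneg (hw : D.Equil w0) (u v : H) : 0 ≤ nn D A w0 u v := by
  unfold nn
  apply intervalIntegral.integral_nonneg (by positivity)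
  intro s _
  have := (hw.pos s).le
  positivity

/-- the test element of a pair of vectors -/
theorem exists_q_pair (hA : D.Inside A η) (hw : D.Equil w0) (u v : H) :
    ∃ q ∈ D.S A,
      inner ℂ u (q.2 v) = ((aa D A w0 u v / 2 : ℝ) : ℂ) ∧
      ∫ t in (0:ℝ)..(2*π), ‖q.1 (D.bd t)‖ ^ 2 * w0 t ≤ aa D A w0 u v / 2 := by
  have hw0 : ∀ s, (w0 s : ℂ) ≠ 0 := hw.ne_zero
  have hw0' : ∀ s, w0 s ≠ 0 := fun s => (hw.pos s).ne'
  set ψ : ℝ → ℂ := fun s => D.X A u v s / (w0 s : ℂ) with hψ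
  have hψc : Continuous ψ := (continuous_X hA u v).div hw.cont_ofReal hw.ne_zero
  have hψp : ∀ s, ψ (s + 2 * π) = ψ s := by
    intro s; simp only [hψ]; rw [X_periodic, hw.per]
  set φ : ℝ → ℂ := fun s => conj (ψ s) with hφ
  have hφc : Continuous φ := Complex.continuous_conj.comp hψc
  have hφp : ∀ s, φ (s + 2 * π) = φ s := by intro s; simp only [hφ]; rw [hψp]
  set c : ℂ := inner ℂ u v with hc
  have hV : ∀ z ∈ D.Om, D.Cin (fun s => conj (φ s)) z = c := by
    intro z hz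
    have := Cin_X hA hw u v hz
    rw [hc, ← this]
    congr 1
    funext s
    simp only [hφ, hψ, Complex.conj_conj]
  obtain ⟨y, hyS, hyb, hy2⟩ := S_cauchy' hA hφc hφp hV
  set q : C(D.K, ℂ) × (H →L[ℂ] H) :=
    (2⁻¹ : ℂ) • (conj c • (1 : C(D.K, ℂ) × (H →L[ℂ] H)) + y) with hqdef
  have hq : q ∈ D.S A :=
    Subalgebra.smul_mem _ (add_mem (Subalgebra.smul_mem _ (one_mem _) _) hyS) _
  have hone : (1 : H →L[ℂ] H) v = v := rfl
  have hnn : ∫ s in (0:ℝ)..(2*π), φ s * D.X A u v s = (nn D A w0 u v : ℂ) := by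
    unfold nn
    rw [← intervalIntegral.integral_ofReal]
    congr 1; ext1 s
    simp only [hφ, hψ]
    rw [map_div₀, Complex.conj_ofReal, div_mul_eq_mul_div, mul_comm (conj _), Complex.mul_conj,
      Complex.normSq_eq_norm_sq]
    push_cast; ring
  have hcc : conj c * c = ((‖c‖ ^ 2 : ℝ) : ℂ) := by
    rw [mul_comm, Complex.mul_conj, Complex.normSq_eq_norm_sq]
  have hL : inner ℂ u (q.2 v) = ((aa D A w0 u v / 2 : ℝ) : ℂ) := by
    rw [hqdef, Prod.smul_snd, Prod.snd_add, Prod.smul_snd, Prod.snd_one, smul_apply, add_apply,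
      smul_apply, inner_smul_right, inner_add_right, inner_smul_right, hone, ← hc, hy2,
      integral_mul_X hA hφc, hnn, hcc]
    unfold aa
    push_cast; ring
  refine ⟨q, hq, hL, ?_⟩
  have hqb : ∀ t, q.1 (D.bd t) = 2⁻¹ * (φ t + D.Dc φ t) := by
    intro t
    rw [hqdef, Prod.smul_fst, Prod.fst_add, Prod.smul_fst, Prod.fst_one,
      ContinuousMap.smul_apply, ContinuousMap.add_apply, ContinuousMap.smul_apply,
      ContinuousMap.one_apply, hyb t, smul_eq_mul, smul_eq_mul]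
    ring
  have hqc : Continuous fun t => q.1 (D.bd t) := q.1.continuous.comp D.continuous_bd
  have hcon := hw.contraction hφc hφp
  have hnφ : ∫ t in (0:ℝ)..(2*π), ‖φ t‖ ^ 2 * w0 t = nn D A w0 u v := by
    unfold nn
    congr 1; ext1 t
    simp only [hφ, hψ, RCLike.norm_conj]
    rw [norm_div, Complex.norm_real, Real.norm_of_nonneg (hw.pos t).le, div_pow]
    have := hw0' t
    field_simp
  have hXφ : ∀ t, D.X A u v t = conj (φ t) * (w0 t : ℂ) := by
    intro t
    simp only [hφ, hψ, Complex.conj_conj]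
    exact (div_mul_cancel₀ _ (hw0 t)).symm
  have e1 : ∀ t, ‖D.Dc φ t‖ ^ 2 * w0 t = 4 * (‖q.1 (D.bd t)‖ ^ 2 * w0 t) + ‖φ t‖ ^ 2 * w0 t
      - 4 * (q.1 (D.bd t) * D.X A u v t).re := by
    intro t
    have h1 : D.Dc φ t = 2 * q.1 (D.bd t) - φ t := by rw [hqb t]; ring
    have h2 : ‖D.Dc φ t‖ ^ 2 = 4 * ‖q.1 (D.bd t)‖ ^ 2 + ‖φ t‖ ^ 2
        - 4 * (q.1 (D.bd t) * conj (φ t)).re := by
      rw [h1, ← Complex.normSq_eq_norm_sq, ← Complex.normSq_eq_norm_sq,
        ← Complex.normSq_eq_norm_sq, Complex.normSq_sub, Complex.normSq_mul]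
      have : Complex.normSq 2 = 4 := by norm_num [Complex.normSq_apply]
      rw [this, mul_assoc 2 (q.1 (D.bd t))]
      have h3 : (2 * (q.1 (D.bd t) * conj (φ t))).re = 2 * (q.1 (D.bd t) * conj (φ t)).re := by
        simp only [mul_re, re_ofNat, conj_re, conj_im, mul_neg, sub_neg_eq_add, im_ofNat, mul_im,
          zero_mul, sub_zero]
      rw [h3]; ring
    have h4 : (q.1 (D.bd t) * D.X A u v t).re = (q.1 (D.bd t) * conj (φ t)).re * w0 t := by
      rw [hXφ t, ← mul_assoc, Complex.re_mul_ofReal]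
    rw [h2, h4]; ring
  have hX := continuous_X hA u v
  have hi1 : Continuous fun t => 4 * (‖q.1 (D.bd t)‖ ^ 2 * w0 t) :=
    continuous_const.mul ((hqc.norm.pow 2).mul hw.cont)
  have hi2 : Continuous fun t => ‖φ t‖ ^ 2 * w0 t := (hφc.norm.pow 2).mul hw.cont
  have hi3 : Continuous fun t => q.1 (D.bd t) * D.X A u v t := hqc.mul hX
  have hi4 : Continuous fun t => 4 * (q.1 (D.bd t) * D.X A u v t).re :=
    continuous_const.mul (Complex.continuous_re.comp hi3)
  simp_rw [e1] at hcon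
  rw [integral_add_sub hi1 hi2 hi4, intervalIntegral.integral_const_mul,
    intervalIntegral.integral_const_mul, integral_re hi3, S_integral_X hA hq u v, hL, hnφ,
    Complex.ofReal_re] at hcon
  linarith only [hcon]

/-- integrals of finite sums of continuous functions -/
theorem integral_sum2 {σ τ : Type*} [Fintype σ] [Fintype τ] {f : σ → τ → ℝ → ℝ}
    (hf : ∀ i k, Continuous (f i k)) (a b : ℝ) :
    ∫ s in a..b, ∑ i, ∑ k, f i k s = ∑ i, ∑ k, ∫ s in a..b, f i k s := by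
  rw [intervalIntegral.integral_finsetSum fun i _ =>
    (continuous_finsetSum _ fun k _ => hf i k).intervalIntegrable _ _]
  refine Finset.sum_congr rfl fun i _ => ?_
  rw [intervalIntegral.integral_finsetSum fun k _ => (hf i k).intervalIntegrable _ _]

theorem nn_cont (hA : D.Inside A η) (hw : D.Equil w0) (u v : H) :
    Continuous fun s => ‖D.X A u v s‖ ^ 2 / w0 s :=
  ((continuous_X hA u v).norm.pow 2).div hw.cont fun s => (hw.pos s).ne'

theorem inner_M_cont (hA : D.Inside A η) (hw : D.Equil w0) (u v : H) :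
    Continuous fun s => ‖inner ℂ u (D.M A s v)‖ ^ 2 / w0 s :=
  ((continuous_inner_M hA u v).norm.pow 2).div hw.cont fun s => (hw.pos s).ne'

/-- the integral of the square of a coefficient of the kernel -/
theorem integral_sq_M (hA : D.Inside A η) (hw : D.Equil w0) (u v : H) :
    ∫ s in (0:ℝ)..(2*π), ‖inner ℂ u (D.M A s v)‖ ^ 2 / w0 s
      = nn D A w0 u v + nn D A w0 v u + 2 * ‖inner ℂ u v‖ ^ 2 := by
  have hc : Continuous fun s => D.X A u v s * D.X A v u s / (w0 s : ℂ) :=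
    ((continuous_X hA u v).mul (continuous_X hA v u)).div hw.cont_ofReal hw.ne_zero
  have hr : Continuous fun s => (-2) * (D.X A u v s * D.X A v u s / (w0 s : ℂ)).re :=
    continuous_const.mul (Complex.continuous_re.comp hc)
  have hint : ∫ s in (0:ℝ)..(2*π),
      (‖D.X A u v s‖ ^ 2 / w0 s + ‖D.X A v u s‖ ^ 2 / w0 s
      - (-2) * (D.X A u v s * D.X A v u s / (w0 s : ℂ)).re)
      = nn D A w0 u v + nn D A w0 v u + 2 * (inner ℂ u v * inner ℂ v u).re := by
    rw [integral_add_sub (nn_cont hA hw u v) (nn_cont hA hw v u) hr,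
      intervalIntegral.integral_const_mul, integral_re hc, pair_equil hA hw]
    unfold nn
    ring
  have h6 : (inner ℂ u v * inner ℂ v u : ℂ).re = ‖inner ℂ u v‖ ^ 2 := by
    rw [← inner_conj_symm v u, Complex.mul_conj, Complex.ofReal_re, Complex.normSq_eq_norm_sq]
  rw [h6] at hint
  rw [← hint]
  congr 1
  funext s
  have hp := (hw.pos s).ne'
  rw [inner_M_X]
  have h3 : ‖D.X A u v s + conj (D.X A v u s)‖ ^ 2 = ‖D.X A u v s‖ ^ 2 + ‖D.X A v u s‖ ^ 2
      + 2 * (D.X A u v s * D.X A v u s).re := by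
    rw [← Complex.normSq_eq_norm_sq, ← Complex.normSq_eq_norm_sq,
      ← Complex.normSq_eq_norm_sq, Complex.normSq_add, Complex.conj_conj, Complex.normSq_conj]
  rw [h3, Complex.div_ofReal_re]
  field_simp
  ring

omit [CompleteSpace H] in
theorem sum_sym {τ : Type*} [Fintype τ] (z : τ → H) :
    ∑ i, ∑ j, (nn D A w0 (z i) (z j) + nn D A w0 (z j) (z i) + 2 * ‖inner ℂ (z i) (z j)‖ ^ 2)
      = 2 * ∑ i, ∑ j, aa D A w0 (z i) (z j) := by
  have e1 : ∑ i, ∑ j, nn D A w0 (z j) (z i) = ∑ i, ∑ j, nn D A w0 (z i) (z j) :=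
    Finset.sum_comm
  simp only [Finset.sum_add_distrib, e1, ← Finset.mul_sum, aa]
  ring

/-- integrated Hilbert-Schmidt inequality -/
theorem sum_nn_le {ι κ : Type*} [Fintype ι] [Fintype κ] (hA : D.Inside A η) (hw : D.Equil w0)
    (x : κ → H) (y : ι → H) :
    ∑ i, ∑ k, nn D A w0 (y i) (x k) ≤
      ∑ k, ∑ l, aa D A w0 (x k) (x l) + ∑ i, ∑ j, aa D A w0 (y i) (y j) := by
  have hpt : ∀ s, 2 * ∑ i, ∑ k, ‖inner ℂ (y i) (D.M A s (x k))‖ ^ 2 / w0 s ≤
      ∑ k, ∑ l, ‖inner ℂ (x k) (D.M A s (x l))‖ ^ 2 / w0 s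
        + ∑ i, ∑ j, ‖inner ℂ (y i) (D.M A s (y j))‖ ^ 2 / w0 s := by
    intro s
    have h1 := gram_ineq (M := D.M A s)
      (fun u v => by
        rw [inner_M_X, inner_M_X, map_add, Complex.conj_conj, add_comm])
      (fun u => inner_M_re_nonneg hA s u) x y
    have hp := (hw.pos s).le
    have h2 := div_le_div_of_nonneg_right h1 hp
    simp only [← Finset.sum_div]
    rw [← add_div, ← mul_div_assoc]
    exact h2
  have hmono : ∫ s in (0:ℝ)..(2*π), 2 * ∑ i, ∑ k, ‖inner ℂ (y i) (D.M A s (x k))‖ ^ 2 / w0 s ≤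
      ∫ s in (0:ℝ)..(2*π), (∑ k, ∑ l, ‖inner ℂ (x k) (D.M A s (x l))‖ ^ 2 / w0 s
        + ∑ i, ∑ j, ‖inner ℂ (y i) (D.M A s (y j))‖ ^ 2 / w0 s) := by
    apply intervalIntegral.integral_mono_on (by positivity)
    · exact (continuous_const.mul (continuous_finsetSum _ fun i _ =>
        continuous_finsetSum _ fun k _ => inner_M_cont hA hw _ _)).intervalIntegrable _ _
    · exact ((continuous_finsetSum _ fun i _ =>
        continuous_finsetSum _ fun k _ => inner_M_cont hA hw _ _).add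
        (continuous_finsetSum _ fun i _ =>
        continuous_finsetSum _ fun k _ => inner_M_cont hA hw _ _)).intervalIntegrable _ _
    · intro s _
      exact hpt s
  rw [intervalIntegral.integral_const_mul,
    integral_sum2 (fun i k => inner_M_cont hA hw (y i) (x k)),
    intervalIntegral.integral_add
      ((continuous_finsetSum _ fun i _ =>
        continuous_finsetSum _ fun k _ => inner_M_cont hA hw _ _).intervalIntegrable _ _)
      ((continuous_finsetSum _ fun i _ =>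
        continuous_finsetSum _ fun k _ => inner_M_cont hA hw _ _).intervalIntegrable _ _),
    integral_sum2 (fun i k => inner_M_cont hA hw (x i) (x k)),
    integral_sum2 (fun i k => inner_M_cont hA hw (y i) (y k))] at hmono
  simp only [integral_sq_M hA hw] at hmono
  rw [sum_sym x, sum_sym y] at hmono
  have h3 : ∑ i, ∑ k, nn D A w0 (y i) (x k) ≤ ∑ i, ∑ k, (nn D A w0 (y i) (x k)
      + nn D A w0 (x k) (y i) + 2 * ‖inner ℂ (y i) (x k)‖ ^ 2) := by
    refine Finset.sum_le_sum fun i _ => Finset.sum_le_sum fun k _ => ?_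
    have h4 := nn_nonneg (A := A) hw (x k) (y i)
    have h5 := sq_nonneg ‖inner ℂ (y i) (x k)‖
    linarith
  linarith

section singular

/-- in finite dimension the norm is attained -/
theorem exists_norm_attained' {E G : Type*} [NormedAddCommGroup E] [InnerProductSpace ℂ E]
    [NormedAddCommGroup G] [InnerProductSpace ℂ G] [FiniteDimensional ℂ E] (T : E →L[ℂ] G)
    (hT : T ≠ 0) : ∃ x : E, ‖x‖ = 1 ∧ ‖T x‖ = ‖T‖ := by
  have hne : ∃ v : E, T v ≠ 0 := by
    by_contra h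
    push Not at h
    exact hT (by ext v; simp [h v])
  obtain ⟨v, hv⟩ := hne
  have hv0 : v ≠ 0 := by rintro rfl; simp only [map_zero, ne_eq, not_true_eq_false] at hv
  have : Nontrivial E := ⟨⟨v, 0, hv0⟩⟩
  have : ProperSpace E := FiniteDimensional.proper ℂ E
  have hS : (Metric.sphere (0:E) 1).Nonempty :=
    NormedSpace.sphere_nonempty.2 zero_le_one
  obtain ⟨x, hx, hmax⟩ := (isCompact_sphere (0:E) 1).exists_isMaxOn hS
    (T.continuous.norm.continuousOn)
  have hx1 : ‖x‖ = 1 := by simpa only [mem_sphere_iff_norm, sub_zero] using hx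
  refine ⟨x, hx1, le_antisymm ?_ ?_⟩
  · have := T.le_opNorm x
    rwa [hx1, mul_one] at this
  · refine T.opNorm_le_bound (norm_nonneg _) fun u => ?_
    by_cases hu : u = 0
    · simp only [hu, map_zero, norm_zero, mul_zero, Std.le_refl]
    have hu' : ‖u‖ ≠ 0 := norm_ne_zero_iff.2 hu
    have h1 : ((‖u‖ : ℂ)⁻¹ • u) ∈ Metric.sphere (0:E) 1 := by
      simp [norm_smul, hu']
    have h2 : ‖T ((‖u‖ : ℂ)⁻¹ • u)‖ ≤ ‖T x‖ := hmax h1
    rw [map_smul, norm_smul, norm_inv, Complex.norm_real, norm_norm] at h2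
    have h3 : ‖T u‖ = ‖u‖ * (‖u‖⁻¹ * ‖T u‖) := by
      rw [← mul_assoc, mul_inv_cancel₀ hu', one_mul]
    rw [h3, mul_comm]
    exact mul_le_mul_of_nonneg_right h2 (norm_nonneg _)

/-- a pair of singular vectors for the largest singular value -/
theorem exists_singular_pair {E G : Type*} [NormedAddCommGroup E] [InnerProductSpace ℂ E]
    [NormedAddCommGroup G] [InnerProductSpace ℂ G] [FiniteDimensional ℂ E] [CompleteSpace E]
    [CompleteSpace G] (T : E →L[ℂ] G) (hT : T ≠ 0) :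
    ∃ (x : E) (y : G), ‖x‖ = 1 ∧ T x = (‖T‖ : ℂ) • y ∧
      ContinuousLinearMap.adjoint T y = (‖T‖ : ℂ) • x := by
  obtain ⟨x, hx, hTx⟩ := exists_norm_attained' T hT
  have hκ : 0 < ‖T‖ := norm_pos_iff.2 hT
  have hκ' : (‖T‖ : ℂ) ≠ 0 := by exact_mod_cast hκ.ne'
  set y : G := (‖T‖ : ℂ)⁻¹ • T x with hy
  have hTy : T x = (‖T‖ : ℂ) • y := by
    rw [hy, smul_smul, mul_inv_cancel₀ hκ', one_smul]
  have hy1 : ‖y‖ = 1 := by
    rw [hy, norm_smul, norm_inv, Complex.norm_real, norm_norm, hTx, inv_mul_cancel₀ hκ.ne']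
  refine ⟨x, y, hx, hTy, ?_⟩
  have h1 : ‖ContinuousLinearMap.adjoint T y‖ ≤ ‖T‖ := by
    have := (ContinuousLinearMap.adjoint T).le_opNorm y
    rwa [hy1, mul_one, LinearIsometryEquiv.norm_map] at this
  have h2 : inner ℂ x (ContinuousLinearMap.adjoint T y) = (‖T‖ : ℂ) := by
    rw [ContinuousLinearMap.adjoint_inner_right, hTy, inner_smul_left, Complex.conj_ofReal,
      inner_self_eq_norm_sq_to_K, hy1]
    simp only [coe_algebraMap, ofReal_one, one_pow, mul_one]
  have h3 : ‖ContinuousLinearMap.adjoint T y - (‖T‖ : ℂ) • x‖ ^ 2 ≤ 0 := by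
    rw [@norm_sub_sq ℂ]
    have h4 : inner ℂ (ContinuousLinearMap.adjoint T y) ((‖T‖ : ℂ) • x)
        = (‖T‖ : ℂ) * (‖T‖ : ℂ) := by
      rw [inner_smul_right, ← inner_conj_symm, h2, Complex.conj_ofReal]
    rw [h4, norm_smul, hx, Complex.norm_real, norm_norm]
    have h5 : RCLike.re ((‖T‖ : ℂ) * (‖T‖ : ℂ)) = ‖T‖ ^ 2 := by
      rw [← Complex.ofReal_mul, RCLike.re_eq_complex_re, Complex.ofReal_re]; ring
    rw [h5]
    have h6 := pow_le_pow_left₀ (norm_nonneg _) h1 2
    linarith only [h6]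
  have h7 : ‖ContinuousLinearMap.adjoint T y - (‖T‖ : ℂ) • x‖ = 0 := by
    have := sq_nonneg ‖ContinuousLinearMap.adjoint T y - (‖T‖ : ℂ) • x‖
    have h8 : ‖ContinuousLinearMap.adjoint T y - (‖T‖ : ℂ) • x‖ ^ 2 = 0 := le_antisymm h3 this
    exact pow_eq_zero_iff (two_ne_zero) |>.1 h8
  exact sub_eq_zero.1 (norm_eq_zero.1 h7)

theorem adjoint_opMatrix {ι κ : Type*} [Fintype ι] [Fintype κ] (T : Matrix ι κ (H →L[ℂ] H)) :
    ContinuousLinearMap.adjoint (opMatrix T)
      = opMatrix (Matrix.of fun k i => ContinuousLinearMap.adjoint (T i k)) := by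
  symm
  rw [ContinuousLinearMap.eq_adjoint_iff]
  intro y x
  rw [PiLp.inner_apply, PiLp.inner_apply]
  simp only [opMatrix_apply, Matrix.of_apply, sum_inner, inner_sum,
    ContinuousLinearMap.adjoint_inner_left]
  exact Finset.sum_comm

end singular

section bil

open scoped Matrix.Norms.L2Operator Matrix

/-- bilinear form of a matrix, bounded by the operator norm -/
theorem bil_le {ι κ : Type*} [Fintype ι] [Fintype κ] [DecidableEq κ] (F : Matrix ι κ ℂ) {m : ℝ}
    (hF : ‖F‖ ≤ m) (a : κ → ℂ) (b : ι → ℂ) {w : ℝ} (hw : 0 < w) :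
    ‖∑ i, (∑ k, F i k * a k) * b i‖ ≤ m * (w * ∑ k, ‖a k‖ ^ 2 + (∑ i, ‖b i‖ ^ 2) / (4 * w)) := by
  have hm0 : 0 ≤ m := (norm_nonneg _).trans hF
  set α : ℝ := Real.sqrt (∑ k, ‖a k‖ ^ 2) with hα
  set β : ℝ := Real.sqrt (∑ i, ‖b i‖ ^ 2) with hβ
  have hα2 : α ^ 2 = ∑ k, ‖a k‖ ^ 2 := Real.sq_sqrt (Finset.sum_nonneg fun _ _ => sq_nonneg _)
  have hβ2 : β ^ 2 = ∑ i, ‖b i‖ ^ 2 := Real.sq_sqrt (Finset.sum_nonneg fun _ _ => sq_nonneg _)
  have h1 := Matrix.l2_opNorm_mulVec F (WithLp.toLp 2 a)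
  have h2 : ‖(EuclideanSpace.equiv ι ℂ).symm (F *ᵥ a)‖ ≤ m * α := by
    refine h1.trans ?_
    rw [EuclideanSpace.norm_eq]
    exact mul_le_mul_of_nonneg_right hF (Real.sqrt_nonneg _)
  have h3 : ‖∑ i, (∑ k, F i k * a k) * b i‖ ≤ (m * α) * β := by
    have e : ∑ i, (∑ k, F i k * a k) * b i
        = inner ℂ (WithLp.toLp 2 (fun i => conj (b i)) : EuclideanSpace ℂ ι)
          ((EuclideanSpace.equiv ι ℂ).symm (F *ᵥ a)) := by
      rw [PiLp.inner_apply]
      refine Finset.sum_congr rfl fun i _ => ?_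
      simp [Matrix.mulVec, dotProduct]
    rw [e]
    refine (norm_inner_le_norm _ _).trans ?_
    rw [mul_comm]
    have h4 : ‖(WithLp.toLp 2 (fun i => conj (b i)) : EuclideanSpace ℂ ι)‖ = β := by
      rw [EuclideanSpace.norm_eq, hβ]
      simp
    rw [h4]
    exact mul_le_mul_of_nonneg_right h2 (Real.sqrt_nonneg _)
  refine h3.trans ?_
  rw [mul_assoc, ← hα2, ← hβ2]
  apply mul_le_mul_of_nonneg_left _ hm0
  have h5 : 0 ≤ (w * α - β / 2) ^ 2 / w := by positivity
  have h6 : (w * α - β / 2) ^ 2 / w = w * α ^ 2 + β ^ 2 / (4 * w) - α * β := by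
    field_simp; ring
  linarith

end bil

section final

open scoped Matrix.Norms.L2Operator

variable {ι κ : Type*} [Fintype ι] [Fintype κ]

omit [CompleteSpace H] in
/-- the sum of the squares of the norms of the test elements -/
theorem test_bound {τ : Type*} [Fintype τ] (hw : D.Equil w0) (z : τ → H)
    (q : τ → τ → C(D.K, ℂ) × (H →L[ℂ] H))
    (hq : ∀ k l, ∫ t in (0:ℝ)..(2*π), ‖(q k l).1 (D.bd t)‖ ^ 2 * w0 t
      ≤ aa D A w0 (z k) (z l) / 2) :
    ∫ t in (0:ℝ)..(2*π), ∑ k, ∑ l, ‖(q k l).1 (D.bd t)‖ ^ 2 * w0 t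
      ≤ (∑ k, ∑ l, aa D A w0 (z k) (z l)) / 2 := by
  have hc : ∀ k l, Continuous fun t => ‖(q k l).1 (D.bd t)‖ ^ 2 * w0 t := fun k l =>
    ((((q k l).1.continuous.comp D.continuous_bd).norm).pow 2).mul hw.cont
  rw [integral_sum2 hc, Finset.sum_div]
  refine Finset.sum_le_sum fun k _ => ?_
  rw [Finset.sum_div]
  exact Finset.sum_le_sum fun l _ => hq k l

/-- the bound obtained from the integral of a bilinear expression -/
theorem key_integral {σ : Type*} [Fintype σ] (hA : D.Inside A η) (hw : D.Equil w0)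
    (x : κ → H) (y : ι → H) {m : ℝ} (hm : 0 ≤ m)
    {G : ℝ → ℂ} (q : σ → σ → C(D.K, ℂ) × (H →L[ℂ] H))
    (hG : ∀ s, ‖G s‖ ≤ m * (∑ k, ∑ l, ‖(q k l).1 (D.bd s)‖ ^ 2 * w0 s
      + 4⁻¹ * ∑ i, ∑ k, ‖D.X A (y i) (x k) s‖ ^ 2 / w0 s))
    {a b : ℝ} (hq : ∫ t in (0:ℝ)..(2*π), ∑ k, ∑ l, ‖(q k l).1 (D.bd t)‖ ^ 2 * w0 t ≤ a / 2)
    (hn : ∑ i, ∑ k, nn D A w0 (y i) (x k) ≤ a + b) (hba : b ≤ a) :
    ‖∫ s in (0:ℝ)..(2*π), G s‖ ≤ m * a := by
  have hc1 : Continuous fun s => ∑ k, ∑ l, ‖(q k l).1 (D.bd s)‖ ^ 2 * w0 s :=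
    continuous_finsetSum _ fun k _ => continuous_finsetSum _ fun l _ =>
      ((((q k l).1.continuous.comp D.continuous_bd).norm).pow 2).mul hw.cont
  have hc2 : Continuous fun s => ∑ i, ∑ k, ‖D.X A (y i) (x k) s‖ ^ 2 / w0 s :=
    continuous_finsetSum _ fun i _ => continuous_finsetSum _ fun k _ => nn_cont hA hw _ _
  have hc3 : Continuous fun s => m * (∑ k, ∑ l, ‖(q k l).1 (D.bd s)‖ ^ 2 * w0 s
      + 4⁻¹ * ∑ i, ∑ k, ‖D.X A (y i) (x k) s‖ ^ 2 / w0 s) :=
    continuous_const.mul (hc1.add (continuous_const.mul hc2))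
  have hc4 : Continuous fun s => 4⁻¹ * ∑ i, ∑ k, ‖D.X A (y i) (x k) s‖ ^ 2 / w0 s :=
    continuous_const.mul hc2
  have h1 : ‖∫ s in (0:ℝ)..(2*π), G s‖ ≤ ∫ s in (0:ℝ)..(2*π),
      m * (∑ k, ∑ l, ‖(q k l).1 (D.bd s)‖ ^ 2 * w0 s
      + 4⁻¹ * ∑ i, ∑ k, ‖D.X A (y i) (x k) s‖ ^ 2 / w0 s) :=
    intervalIntegral.norm_integral_le_of_norm_le (by positivity)
      (Filter.Eventually.of_forall fun s _ => hG s) (hc3.intervalIntegrable _ _)
  rw [intervalIntegral.integral_const_mul, intervalIntegral.integral_add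
    (hc1.intervalIntegrable _ _) (hc4.intervalIntegrable _ _),
    intervalIntegral.integral_const_mul, integral_sum2 fun i k => nn_cont hA hw (y i) (x k)] at h1
  refine h1.trans (mul_le_mul_of_nonneg_left ?_ hm)
  have e : ∑ i, ∑ k, ∫ s in (0:ℝ)..(2*π), ‖D.X A (y i) (x k) s‖ ^ 2 / w0 s
      = ∑ i, ∑ k, nn D A w0 (y i) (x k) := rfl
  rw [e]
  linarith

omit [CompleteSpace H] in
theorem aa_nonneg (hw : D.Equil w0) (u v : H) : 0 ≤ aa D A w0 u v := by
  unfold aa
  have := nn_nonneg (A := A) hw u v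
  positivity

omit [CompleteSpace H] in
theorem sum_aa_pos {τ : Type*} [Fintype τ] (hw : D.Equil w0) (z : τ → H) (hz : z ≠ 0) :
    0 < ∑ k, ∑ l, aa D A w0 (z k) (z l) := by
  obtain ⟨k, hk⟩ : ∃ k, z k ≠ 0 := by
    by_contra h
    push Not at h
    exact hz (funext h)
  have h0 : ∀ k l, 0 ≤ aa D A w0 (z k) (z l) := fun k l => aa_nonneg hw _ _
  have h1 : 0 < aa D A w0 (z k) (z k) := by
    unfold aa
    have h2 := nn_nonneg (A := A) hw (z k) (z k)
    have h3 : 0 < ‖inner ℂ (z k) (z k)‖ := by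
      rw [norm_pos_iff]
      exact inner_self_ne_zero.2 hk
    positivity
  calc 0 < aa D A w0 (z k) (z k) := h1
    _ ≤ ∑ l, aa D A w0 (z k) (z l) :=
      Finset.single_le_sum (f := fun l => aa D A w0 (z k) (z l)) (fun l _ => h0 k l)
        (Finset.mem_univ k)
    _ ≤ ∑ k, ∑ l, aa D A w0 (z k) (z l) :=
      Finset.single_le_sum (f := fun k => ∑ l, aa D A w0 (z k) (z l))
        (fun k _ => Finset.sum_nonneg fun l _ => h0 k l) (Finset.mem_univ k)

/-- integrals of finite sums of continuous functions -/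
theorem integral_sum3 {ρ σ τ : Type*} [Fintype ρ] [Fintype σ] [Fintype τ]
    {f : ρ → σ → τ → ℝ → ℂ} (hf : ∀ i j k, Continuous (f i j k)) (a b : ℝ) :
    ∫ s in a..b, ∑ i, ∑ j, ∑ k, f i j k s = ∑ i, ∑ j, ∑ k, ∫ s in a..b, f i j k s := by
  rw [intervalIntegral.integral_finsetSum fun i _ =>
    (continuous_finsetSum _ fun j _ => continuous_finsetSum _ fun k _ =>
      hf i j k).intervalIntegrable _ _]
  refine Finset.sum_congr rfl fun i _ => ?_
  rw [intervalIntegral.integral_finsetSum fun j _ =>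
    (continuous_finsetSum _ fun k _ => hf i j k).intervalIntegrable _ _]
  refine Finset.sum_congr rfl fun j _ => ?_
  rw [intervalIntegral.integral_finsetSum fun k _ => (hf i j k).intervalIntegrable _ _]

/-- pairing of a product with a coefficient -/
theorem prod_integral (hA : D.Inside A η) {f q : C(D.K, ℂ) × (H →L[ℂ] H)} (hf : f ∈ D.S A)
    (hq : q ∈ D.S A) (y x : H) :
    ∫ s in (0:ℝ)..(2*π), f.1 (D.bd s) * q.1 (D.bd s) * D.X A y x s
      = inner ℂ y (f.2 (q.2 x)) :=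
  S_integral_X hA (mul_mem_S hf hq) y x

theorem prod_cont (hA : D.Inside A η) (f q : C(D.K, ℂ) × (H →L[ℂ] H)) (y x : H) :
    Continuous fun s => f.1 (D.bd s) * q.1 (D.bd s) * D.X A y x s :=
  ((f.1.continuous.comp D.continuous_bd).mul (q.1.continuous.comp D.continuous_bd)).mul
    (continuous_X hA y x)

variable [DecidableEq κ]

theorem singular_pair_le (hA : D.Inside A η) (hw : D.Equil w0)
    (F : Matrix ι κ ℂ[X]) {m : ℝ} (hF : ∀ z ∈ D.K, ‖F.map (Polynomial.eval z)‖ ≤ m)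
    {c : ℝ} (x : κ → H) (y : ι → H) (hx : x ≠ 0)
    (hTx : ∀ i, ∑ k, aeval A (F i k) (x k) = (c : ℂ) • y i)
    (hTy : ∀ k, ∑ i, ContinuousLinearMap.adjoint (aeval A (F i k)) (y i) = (c : ℂ) • x k) :
    c ≤ 2 * m := by
  have hm0 : 0 ≤ m := (norm_nonneg _).trans (hF _ (D.sig_mem_K 0))
  choose f hfS hf1 hf2 using fun i k => poly_mem_S (D := D) A (F i k)
  have hbound : ∀ s, ‖(Matrix.of fun i k => (f i k).1 (D.bd s) : Matrix ι κ ℂ)‖ ≤ m := by
    intro s
    have h1 := hF _ (D.bd s).2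
    have h2 : F.map (Polynomial.eval ((D.bd s : D.K) : ℂ))
        = (Matrix.of fun i k => (f i k).1 (D.bd s) : Matrix ι κ ℂ) := by
      ext i k
      simp only [Matrix.map_apply, Matrix.of_apply, hf1]
    rwa [h2] at h1
  set a : ℝ := ∑ k, ∑ l, aa D A w0 (x k) (x l) with ha
  set b : ℝ := ∑ i, ∑ j, aa D A w0 (y i) (y j) with hb
  have hn : ∑ i, ∑ k, nn D A w0 (y i) (x k) ≤ a + b := sum_nn_le hA hw x y
  have hapos : 0 < a := sum_aa_pos hw x hx
  rcases le_total b a with hba | hab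
  · -- test elements of `x`
    choose q hqS hq1 hq2 using fun k l => exists_q_pair hA hw (x k) (x l)
    set G : ℝ → ℂ := fun s => ∑ l, ∑ i, ∑ k,
      (f i k).1 (D.bd s) * (q k l).1 (D.bd s) * D.X A (y i) (x l) s with hG
    have hGb : ∀ s, ‖G s‖ ≤ m * (∑ k, ∑ l, ‖(q k l).1 (D.bd s)‖ ^ 2 * w0 s
        + 4⁻¹ * ∑ i, ∑ k, ‖D.X A (y i) (x k) s‖ ^ 2 / w0 s) := by
      intro s
      have hp := hw.pos s
      have h1 : ∀ l, ‖∑ i, ∑ k, (f i k).1 (D.bd s) * (q k l).1 (D.bd s) * D.X A (y i) (x l) s‖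
          ≤ m * (w0 s * ∑ k, ‖(q k l).1 (D.bd s)‖ ^ 2
            + (∑ i, ‖D.X A (y i) (x l) s‖ ^ 2) / (4 * w0 s)) := by
        intro l
        have h2 := bil_le _ (hbound s) (fun k => (q k l).1 (D.bd s))
          (fun i => D.X A (y i) (x l) s) hp
        simp only [Matrix.of_apply, Finset.sum_mul] at h2
        exact h2
      refine (norm_sum_le _ _).trans ((Finset.sum_le_sum fun l _ => h1 l).trans (le_of_eq ?_))
      rw [← Finset.mul_sum, Finset.sum_add_distrib, ← Finset.mul_sum, ← Finset.sum_div]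
      congr 2
      · rw [Finset.sum_comm]
        simp only [Finset.mul_sum]
        exact Finset.sum_congr rfl fun k _ => Finset.sum_congr rfl fun l _ => mul_comm _ _
      · rw [Finset.sum_comm]
        simp only [← Finset.sum_div]
        field_simp
    have hGi : ∫ s in (0:ℝ)..(2*π), G s = ((c * (a / 2) : ℝ) : ℂ) := by
      rw [hG, integral_sum3 fun l i k => prod_cont hA (f i k) (q k l) (y i) (x l)]
      simp only [prod_integral hA (hfS _ _) (hqS _ _)]
      have e1 : ∀ i k l, inner ℂ (y i) ((f i k).2 ((q k l).2 (x l)))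
          = inner ℂ (ContinuousLinearMap.adjoint (aeval A (F i k)) (y i)) ((q k l).2 (x l)) := by
        intro i k l
        rw [ContinuousLinearMap.adjoint_inner_left, hf2]
      simp only [e1]
      have e2 : ∑ l, ∑ i, ∑ k,
          inner ℂ (ContinuousLinearMap.adjoint (aeval A (F i k)) (y i)) ((q k l).2 (x l))
          = ∑ k, ∑ l, inner ℂ (∑ i, ContinuousLinearMap.adjoint (aeval A (F i k)) (y i))
            ((q k l).2 (x l)) := by
        simp only [sum_inner]
        rw [Finset.sum_congr rfl fun l _ => Finset.sum_comm]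
        exact Finset.sum_comm
      rw [e2]
      simp only [hTy, inner_smul_left, hq1, Complex.conj_ofReal, ha]
      push_cast
      simp only [Finset.mul_sum, Finset.sum_div]
    have h3 := key_integral hA hw x y hm0 q hGb (test_bound hw x q hq2) hn hba
    rw [hGi, Complex.norm_real] at h3
    have h4 := (le_abs_self (c * (a / 2))).trans h3
    have h5 : c * a ≤ 2 * m * a := by linarith
    exact le_of_mul_le_mul_right h5 hapos
  · -- test elements of `y`
    choose q hqS hq1 hq2 using fun i j => exists_q_pair hA hw (y i) (y j)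
    set G : ℝ → ℂ := fun s => ∑ i, ∑ j, ∑ k,
      (q i j).1 (D.bd s) * (f j k).1 (D.bd s) * D.X A (y i) (x k) s with hG
    have hGb : ∀ s, ‖G s‖ ≤ m * (∑ i, ∑ j, ‖(q i j).1 (D.bd s)‖ ^ 2 * w0 s
        + 4⁻¹ * ∑ i, ∑ k, ‖D.X A (y i) (x k) s‖ ^ 2 / w0 s) := by
      intro s
      have hp := hw.pos s
      have h1 : ∀ i, ‖∑ j, ∑ k, (q i j).1 (D.bd s) * (f j k).1 (D.bd s) * D.X A (y i) (x k) s‖
          ≤ m * ((∑ j, ‖(q i j).1 (D.bd s)‖ ^ 2) * w0 s
            + 4⁻¹ * ((∑ k, ‖D.X A (y i) (x k) s‖ ^ 2) / w0 s)) := by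
        intro i
        have h2 := bil_le _ (hbound s) (fun k => D.X A (y i) (x k) s)
          (fun j => (q i j).1 (D.bd s)) (w := 1 / (4 * w0 s)) (by positivity)
        simp only [Matrix.of_apply, Finset.sum_mul] at h2
        have e3 : ∑ j, ∑ k, (q i j).1 (D.bd s) * (f j k).1 (D.bd s) * D.X A (y i) (x k) s
            = ∑ j, ∑ k, (f j k).1 (D.bd s) * D.X A (y i) (x k) s * (q i j).1 (D.bd s) :=
          Finset.sum_congr rfl fun j _ => Finset.sum_congr rfl fun k _ => by ring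
        rw [e3]
        refine h2.trans (le_of_eq ?_)
        congr 1
        field_simp
        ring
      refine (norm_sum_le _ _).trans ((Finset.sum_le_sum fun i _ => h1 i).trans (le_of_eq ?_))
      rw [← Finset.mul_sum, Finset.sum_add_distrib, ← Finset.mul_sum]
      simp only [Finset.sum_mul, Finset.sum_div]
    have hGi : ∫ s in (0:ℝ)..(2*π), G s = ((c * (b / 2) : ℝ) : ℂ) := by
      rw [hG, integral_sum3 fun i j k => prod_cont hA (q i j) (f j k) (y i) (x k)]
      simp only [prod_integral hA (hqS _ _) (hfS _ _), hf2]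
      have e2 : ∑ i, ∑ j, ∑ k, inner ℂ (y i) ((q i j).2 (aeval A (F j k) (x k)))
          = ∑ i, ∑ j, inner ℂ (y i) ((q i j).2 (∑ k, aeval A (F j k) (x k))) := by
        simp only [map_sum, inner_sum]
      rw [e2]
      simp only [hTx, map_smul, inner_smul_right, hq1, hb]
      push_cast
      simp only [Finset.mul_sum, Finset.sum_div]
    have h3 := key_integral hA hw x y hm0 q hGb (test_bound hw y q hq2)
      (hn.trans (le_of_eq (add_comm a b))) hab
    rw [hGi, Complex.norm_real] at h3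
    have h4 := (le_abs_self (c * (b / 2))).trans h3
    have h5 : c * b ≤ 2 * m * b := by linarith
    exact le_of_mul_le_mul_right h5 (hapos.trans_le hab)

/-- The matrix-valued inequality in finite dimension. -/
theorem matBd_fin [FiniteDimensional ℂ H] (hA : D.Inside A η) (F : Matrix ι κ ℂ[X]) {m : ℝ}
    (hF : ∀ z ∈ D.K, ‖F.map (Polynomial.eval z)‖ ≤ m) : MatBd A F (2 * m) := by
  have hm0 : 0 ≤ m := (norm_nonneg _).trans (hF _ (D.sig_mem_K 0))
  obtain ⟨w0, hw⟩ := exists_equil D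
  set T : PiLp 2 (fun _ : κ => H) →L[ℂ] PiLp 2 (fun _ : ι => H) :=
    opMatrix (Matrix.of fun i k => aeval A (F i k)) with hT
  have hTa : ∀ x i, T x i = ∑ k, aeval A (F i k) (x k) := fun x i => by
    rw [hT, opMatrix_apply]; rfl
  suffices h : ‖T‖ ≤ 2 * m by
    intro x
    have := sq_of_norm_opMatrix_le _ h x
    simpa only [Matrix.of_apply] using this
  by_cases hT0 : T = 0
  · have h0 : ‖T‖ = 0 := by rw [hT0]; exact ContinuousLinearMap.opNorm_zero
    rw [h0]; positivity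
  obtain ⟨x, y, hx, hxy, hyx⟩ := exists_singular_pair T hT0
  refine singular_pair_le hA hw F hF (fun k => x k) (fun i => y i) ?_ ?_ ?_
  · intro h0
    apply norm_ne_zero_iff.1 (by rw [hx]; exact one_ne_zero : ‖x‖ ≠ 0)
    ext k
    exact congrFun h0 k
  · intro i
    rw [← hTa, hxy]
    rfl
  · intro k
    have h1 := congrArg (fun v : PiLp 2 (fun _ : κ => H) => v k) hyx
    simp only [hT, adjoint_opMatrix, opMatrix_apply, Matrix.of_apply] at h1
    exact h1

end final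

end Vale.Agent.P123.H290
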