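import Mathlib.Analysis.CStarAlgebra.Matrix
import Mathlib.Analysis.InnerProductSpace.PiL2
import Mathlib.Analysis.Normed.Operator.Basic

/-! # P123: matrices of operators on Hilbert sums (definitions) -/

open Polynomial

namespace Vale.Agent.P123.H290

/-- The operator `(x_j)_j ↦ (∑_j T_ij x_j)_i` from the Hilbert sum of copies of `H` indexed by `κ`
to the Hilbert sum of copies of `H` indexed by `ι`, given by a matrix `T` of bounded operators. -/
noncomputable def opMatrix {H : Type*} [NormedAddCommGroup H] [InnerProductSpace ℂ H]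
    {ι κ : Type*} [Fintype ι] [Fintype κ] (T : Matrix ι κ (H →L[ℂ] H)) :
    PiLp 2 (fun _ : κ => H) →L[ℂ] PiLp 2 (fun _ : ι => H) :=
  ((PiLp.continuousLinearEquiv 2 ℂ (fun _ : ι => H)).symm : (ι → H) →L[ℂ] _) ∘L
    (ContinuousLinearMap.pi fun i => ∑ j, T i j ∘L ContinuousLinearMap.proj j) ∘L
    ((PiLp.continuousLinearEquiv 2 ℂ (fun _ : κ => H)) : _ →L[ℂ] (κ → H))

end Vale.Agent.P123.H290
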