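import Vale.Agent.P123.H290.Sharp

/-! # P123: final form of the complete Crouzeix theorem -/

open Polynomial Filter Topology Set

namespace Vale.Agent.P123.H290

open Vale.Agent.P123 Vale.Agent.P123.H880
open scoped Matrix.Norms.L2Operator

theorem final_bound {H : Type*} [NormedAddCommGroup H] [InnerProductSpace ℂ H] [CompleteSpace H]
    [Nontrivial H] (A : H →L[ℂ] H) {m n : ℕ} (F : Matrix (Fin m) (Fin n) ℂ[X]) :
    ‖opMatrix (F.map fun p => aeval A p)‖ ≤
      2 * sSup ((fun z => ‖F.map fun p => p.eval z‖) '' W A) :=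
  complete_bound A F

theorem final_rational {H : Type*} [NormedAddCommGroup H] [InnerProductSpace ℂ H]
    [CompleteSpace H] [Nontrivial H] (A : H →L[ℂ] H) (Q : ℂ[X])
    (hQ : ∀ z ∈ closure (W A), Q.eval z ≠ 0) :
    IsUnit (aeval A Q) ∧ ∀ (m n : ℕ) (F : Matrix (Fin m) (Fin n) ℂ[X]),
      ‖opMatrix (F.map fun p => aeval A p * Ring.inverse (aeval A Q))‖ ≤
        2 * sSup ((fun z => ‖F.map fun p => p.eval z / Q.eval z‖) '' W A) := by
  obtain ⟨B, h1, h2, -⟩ := Vale.Agent.P123.H880.rational_bound A 1 Q hQ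
  refine ⟨⟨⟨aeval A Q, B, h2, h1⟩, rfl⟩, fun m n F => ?_⟩
  have h4 : Ring.inverse (aeval A Q) = B :=
    Ring.inverse_unit (⟨aeval A Q, B, h2, h1⟩ : (H →L[ℂ] H)ˣ)
  rw [h4]
  have h5 : ∀ z, (F.map fun p => p.eval z / Q.eval z) = ratVal F Q z := by
    intro z
    ext i j
    simp only [ratVal, Matrix.map_apply, Matrix.smul_apply, smul_eq_mul]
    rw [div_eq_inv_mul]
  simp only [h5]
  exact complete_rational_bound A F Q hQ B h1

end Vale.Agent.P123.H290
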