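import Vale.Agent.P123.H290.Red
import Vale.Agent.P123.H290.Op
import Vale.Agent.P123.H880.Rational

/-! # P123: matrix-valued rational functions, operator norms on Hilbert sums -/

open Polynomial Filter Topology Set

namespace Vale.Agent.P123.H290

open Vale.Agent.P123 Vale.Agent.P123.H880


section rat

variable {H : Type*} [NormedAddCommGroup H] [InnerProductSpace ℂ H] [CompleteSpace H]
variable {ι κ : Type*} [Fintype ι] [Fintype κ] [DecidableEq κ]

open scoped Matrix.Norms.L2Operator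

/-- the values of the matrix-valued rational function `F / Q` -/
noncomputable def ratVal (F : Matrix ι κ ℂ[X]) (Q : ℂ[X]) (z : ℂ) : Matrix ι κ ℂ :=
  (Q.eval z)⁻¹ • F.map (Polynomial.eval z)

theorem rational_mat [Nontrivial H]
    (main : ∀ (A : H →L[ℂ] H) (F : Matrix ι κ ℂ[X]),
      MatBd A F (2 * sSup ((fun z => ‖F.map (Polynomial.eval z)‖) '' numRange A)))
    (A : H →L[ℂ] H) (F : Matrix ι κ ℂ[X]) (Q : ℂ[X])
    (hQ : ∀ z ∈ closure (numRange A), Q.eval z ≠ 0) (B : H →L[ℂ] H)
    (hB1 : B * aeval A Q = 1) (x : κ → H) :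
    ∑ i, ‖∑ j, (aeval A (F i j) * B) (x j)‖ ^ 2 ≤
      (2 * sSup ((fun z => ‖ratVal F Q z‖) '' numRange A)) ^ 2 * ∑ j, ‖x j‖ ^ 2 := by
  set K := closure (numRange A) with hKdef
  have hK : IsCompact K := compact_cl A
  have hc : Convex ℝ K := (convex_numRange A).closure
  have hne : (numRange A).Nonempty := numRange_nonempty A
  obtain ⟨MQ, hMQ⟩ := hK.exists_bound_of_continuousOn (Q.continuous.continuousOn)
  obtain ⟨MF, hMF⟩ := hK.exists_bound_of_continuousOn (continuous_mat F).continuousOn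
  have hinv := PolyLim.inv_poly hK hc Q hQ
  obtain ⟨z0, hz0⟩ := hne.closure
  have hMQ0 : 0 ≤ MQ := (norm_nonneg _).trans (hMQ z0 hz0)
  have hMF0 : 0 ≤ MF := (norm_nonneg _).trans (hMF z0 hz0)
  choose q hq using fun n : ℕ => hinv (1 / ((n : ℝ) + 1)) (by positivity)
  have hclose : ∀ n, ‖1 - aeval A Q * aeval A (q n)‖ ≤ 2 * (MQ * (1 / ((n : ℝ) + 1))) := by
    intro n
    have e : 1 - aeval A Q * aeval A (q n) = aeval A (1 - Q * q n) := by simp
    rw [e]
    apply bound_of_le
    intro z hz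
    have h1 : (1 - Q * q n).eval z = -(Q.eval z * ((q n).eval z - (Q.eval z)⁻¹)) := by
      rw [eval_sub, eval_mul, eval_one, mul_sub, mul_inv_cancel₀ (hQ z hz)]; ring
    rw [h1, norm_neg, norm_mul]
    exact mul_le_mul (hMQ z hz) (hq n z hz) (norm_nonneg _) hMQ0
  have ht0 : Tendsto (fun n : ℕ => 1 / ((n : ℝ) + 1)) atTop (𝓝 0) :=
    tendsto_one_div_add_atTop_nhds_zero_nat
  have hqB : Tendsto (fun n => aeval A (q n)) atTop (𝓝 B) := by
    rw [tendsto_iff_norm_sub_tendsto_zero]
    have h0 : Tendsto (fun n : ℕ => ‖B‖ * (2 * (MQ * (1 / ((n : ℝ) + 1))))) atTop (𝓝 0) := by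
      have := ((ht0.const_mul MQ).const_mul 2).const_mul ‖B‖
      simpa using this
    refine squeeze_zero (fun n => norm_nonneg _) (fun n => ?_) h0
    have e1 : aeval A (q n) - B = -(B * (1 - aeval A Q * aeval A (q n))) := by
      have : aeval A (q n) = (B * aeval A Q) * aeval A (q n) := by rw [hB1, one_mul]
      rw [mul_sub, mul_one, ← mul_assoc, ← this]; abel
    rw [e1, norm_neg]
    exact (norm_mul_le _ _).trans (mul_le_mul_of_nonneg_left (hclose n) (norm_nonneg _))
  set S : ℝ := sSup ((fun z => ‖ratVal F Q z‖) '' numRange A) with hS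
  have hcont : ContinuousOn (fun z => ‖ratVal F Q z‖) K := by
    have h1 : Continuous fun z : ℂ => F.map (Polynomial.eval z) := by
      refine continuous_matrix fun i j => ?_
      simp only [Matrix.map_apply]
      exact (F i j).continuous
    apply ContinuousOn.norm
    exact (Q.continuous.continuousOn.inv₀ hQ).smul h1.continuousOn
  have hbdd : BddAbove ((fun z => ‖ratVal F Q z‖) '' numRange A) :=
    ((hK.image_of_continuousOn hcont).bddAbove).mono (Set.image_mono subset_closure)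
  have hS0 : 0 ≤ S := Real.sSup_nonneg (by rintro _ ⟨z, -, rfl⟩; exact norm_nonneg _)
  set Fn : ℕ → Matrix ι κ ℂ[X] := fun n => F.map (fun P => P * q n) with hFn
  have hFe : ∀ n z, (Fn n).map (Polynomial.eval z) = ratVal F Q z
      + ((q n).eval z - (Q.eval z)⁻¹) • F.map (Polynomial.eval z) := by
    intro n z
    ext i j
    simp only [hFn, ratVal, Matrix.map_apply, Matrix.add_apply, Matrix.smul_apply, smul_eq_mul,
      eval_mul]
    ring
  have hsup : ∀ n, sSup ((fun z => ‖(Fn n).map (Polynomial.eval z)‖) '' numRange A)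
      ≤ S + (1 / ((n : ℝ) + 1)) * MF := by
    intro n
    apply csSup_le (hne.image _)
    rintro _ ⟨z, hz, rfl⟩
    simp only [hFe]
    refine (norm_add_le _ _).trans (add_le_add (le_csSup hbdd ⟨z, hz, rfl⟩) ?_)
    rw [norm_smul]
    refine mul_le_mul (hq n z (subset_closure hz)) ?_ (norm_nonneg _) (by positivity)
    have := hMF z (subset_closure hz)
    rwa [norm_norm] at this
  have hsup0 : ∀ n, 0 ≤ sSup ((fun z => ‖(Fn n).map (Polynomial.eval z)‖) '' numRange A) :=
    fun n => Real.sSup_nonneg (by rintro _ ⟨z, -, rfl⟩; exact norm_nonneg _)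
  have hineq : ∀ n, ∑ i, ‖∑ j, (aeval A (F i j) * aeval A (q n)) (x j)‖ ^ 2
      ≤ (2 * (S + (1 / ((n : ℝ) + 1)) * MF)) ^ 2 * ∑ j, ‖x j‖ ^ 2 := by
    intro n
    have h1 := main A (Fn n) x
    have e1 : ∀ i j, aeval A (Fn n i j) = aeval A (F i j) * aeval A (q n) := by
      intro i j
      simp only [hFn, Matrix.map_apply, map_mul]
    simp only [e1] at h1
    have e2 := hsup n
    have e3 := hsup0 n
    exact h1.trans (mul_le_mul_of_nonneg_right
      (pow_le_pow_left₀ (mul_nonneg zero_le_two e3) (mul_le_mul_of_nonneg_left e2 zero_le_two) 2)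
      (Finset.sum_nonneg fun _ _ => sq_nonneg _))
  have hl : Tendsto (fun n => ∑ i, ‖∑ j, (aeval A (F i j) * aeval A (q n)) (x j)‖ ^ 2) atTop
      (𝓝 (∑ i, ‖∑ j, (aeval A (F i j) * B) (x j)‖ ^ 2)) := by
    refine tendsto_finsetSum _ fun i _ => ?_
    refine Tendsto.pow (Tendsto.norm ?_) 2
    refine tendsto_finsetSum _ fun j _ => ?_
    have h2 : Tendsto (fun n => aeval A (F i j) * aeval A (q n)) atTop
        (𝓝 (aeval A (F i j) * B)) := hqB.const_mul _
    exact ((ContinuousLinearMap.apply ℂ H (x j)).continuous.tendsto _).comp h2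
  have hr : Tendsto (fun n : ℕ => (2 * (S + (1 / ((n : ℝ) + 1)) * MF)) ^ 2 * ∑ j, ‖x j‖ ^ 2)
      atTop (𝓝 ((2 * (S + 0 * MF)) ^ 2 * ∑ j, ‖x j‖ ^ 2)) :=
    ((((ht0.mul_const MF).const_add S).const_mul 2).pow 2).mul_const _
  rw [zero_mul, add_zero] at hr
  exact le_of_tendsto_of_tendsto' hl hr hineq

end rat

end Vale.Agent.P123.H290
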