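import Vale.Agent.P123.H290.Core
import Vale.Agent.P123.H290.Rat

/-! # P123: the complete (matrix-valued) Crouzeix inequality with constant two -/

open Polynomial Filter Topology Set

namespace Vale.Agent.P123.H290

open Vale.Agent.P123 Vale.Agent.P123.H880

section main

variable {H : Type*} [NormedAddCommGroup H] [InnerProductSpace ℂ H] [CompleteSpace H]
variable {ι κ : Type*} [Fintype ι] [Fintype κ] [DecidableEq κ]

open scoped Matrix.Norms.L2Operator

/-- **The complete Crouzeix inequality.** -/
theorem matBd_numRange [Nontrivial H] (A : H →L[ℂ] H) (F : Matrix ι κ ℂ[X]) :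
    MatBd A F (2 * sSup ((fun z => ‖F.map (Polynomial.eval z)‖) '' numRange A)) := by
  refine reduction_mat (fun D A eta hA F m hF => ?_) A F
  refine matBd_of_fin hA F fun V _ B hB => ?_
  have : CompleteSpace V := FiniteDimensional.complete ℂ V
  exact matBd_fin hB F hF

omit [CompleteSpace H] in
theorem sup_nonneg (A : H →L[ℂ] H) (f : ℂ → Matrix ι κ ℂ) :
    0 ≤ 2 * sSup ((fun z => ‖f z‖) '' numRange A) :=
  mul_nonneg zero_le_two (Real.sSup_nonneg (by rintro _ ⟨z, -, rfl⟩; exact norm_nonneg _))

theorem complete_bound [Nontrivial H] (A : H →L[ℂ] H) (F : Matrix ι κ ℂ[X]) :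
    ‖opMatrix (Matrix.of fun i j => aeval A (F i j))‖ ≤
      2 * sSup ((fun z => ‖F.map (Polynomial.eval z)‖) '' numRange A) :=
  norm_opMatrix_le _ (sup_nonneg A _) fun x => by
    simpa only [Matrix.of_apply] using matBd_numRange A F x

theorem complete_rational_bound [Nontrivial H] (A : H →L[ℂ] H) (F : Matrix ι κ ℂ[X]) (Q : ℂ[X])
    (hQ : ∀ z ∈ closure (numRange A), Q.eval z ≠ 0) (B : H →L[ℂ] H)
    (hB1 : B * aeval A Q = 1) :
    ‖opMatrix (Matrix.of fun i j => aeval A (F i j) * B)‖ ≤
      2 * sSup ((fun z => ‖ratVal F Q z‖) '' numRange A) :=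
  norm_opMatrix_le _ (sup_nonneg A _) fun x => by
    simpa only [Matrix.of_apply] using
      rational_mat (fun A F => matBd_numRange A F) A F Q hQ B hB1 x

end main

end Vale.Agent.P123.H290
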