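import Vale.Agent.P123.Bdl.B2
import Mathlib.Analysis.CStarAlgebra.Matrix

/-! # P123: reduction of matrix-valued inequalities to smooth domains and finite dimension -/

open Polynomial Filter Topology Set

namespace Vale.Agent.P123.H290

open Vale.Agent.P123

section approx

theorem le_sSup_closure {W : Set ℂ} {M : ℝ} (hW : ∀ w ∈ W, ‖w‖ ≤ M) {g : ℂ → ℝ}
    (hg : Continuous g) {v : ℂ} (hv : v ∈ closure W) : g v ≤ sSup (g '' W) := by
  have hbdd : BddAbove (g '' W) := by
    have hcomp : IsCompact (Metric.closedBall (0:ℂ) M) := isCompact_closedBall _ _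
    have hb := (hcomp.image hg).bddAbove
    refine hb.mono (image_mono fun w hw => ?_)
    simpa using hW w hw
  have hcl : closure W ⊆ {z : ℂ | g z ≤ sSup (g '' W)} := by
    refine closure_minimal (fun w hw => le_csSup hbdd ⟨w, hw, rfl⟩) ?_
    exact isClosed_le hg continuous_const
  exact hcl hv

theorem exists_delta' {g : ℂ → ℝ} (hg : Continuous g) (M : ℝ) {ε : ℝ} (hε : 0 < ε) :
    ∃ δ > 0, δ ≤ 1 ∧ ∀ z v : ℂ, ‖v‖ ≤ M → ‖z - v‖ ≤ δ → g z ≤ g v + ε := by
  have hcomp : IsCompact (Metric.closedBall (0:ℂ) (M + 1)) := isCompact_closedBall _ _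
  have huc : UniformContinuousOn g (Metric.closedBall (0:ℂ) (M + 1)) :=
    hcomp.uniformContinuousOn_of_continuous hg.continuousOn
  rw [Metric.uniformContinuousOn_iff] at huc
  obtain ⟨δ, hδ, hd⟩ := huc ε hε
  refine ⟨min (δ / 2) 1, by positivity, min_le_right _ _, fun z v hv hzv => ?_⟩
  have h1 : ‖z - v‖ ≤ 1 := hzv.trans (min_le_right _ _)
  have h2 : ‖z - v‖ < δ := by
    have := hzv.trans (min_le_left _ _)
    linarith
  have hz : z ∈ Metric.closedBall (0:ℂ) (M + 1) := by
    rw [mem_closedBall_zero_iff]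
    calc ‖z‖ = ‖v + (z - v)‖ := by congr 1; ring
      _ ≤ ‖v‖ + ‖z - v‖ := norm_add_le _ _
      _ ≤ M + 1 := add_le_add hv h1
  have hv' : v ∈ Metric.closedBall (0:ℂ) (M + 1) := by
    rw [mem_closedBall_zero_iff]; linarith
  have h3 := hd z hz v hv' (by rwa [dist_eq_norm])
  rw [Real.dist_eq, abs_lt] at h3
  linarith [h3.2]

variable {H : Type*} [NormedAddCommGroup H] [InnerProductSpace ℂ H]

/-- outer approximation when `0` is in the numerical range, for a continuous function -/
theorem exists_dom_of_zero_mem' (A : H →L[ℂ] H) (h0 : (0:ℂ) ∈ numRange A) {g : ℂ → ℝ}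
    (hg : Continuous g) {ε : ℝ} (hε : 0 < ε) :
    ∃ (D : Dom) (eta : ℝ), D.Inside A eta ∧
      (∀ z ∈ D.K, g z ≤ sSup (g '' numRange A) + ε) := by
  have hW : ∀ w ∈ numRange A, ‖w‖ ≤ ‖A‖ := fun w hw => norm_le_of_mem_numRange A hw
  obtain ⟨δ, hδ, hδ1, hd⟩ := exists_delta' hg ‖A‖ hε
  set e : ℝ := δ / (8 * (‖A‖ + 1)) with he
  have hepos : 0 < e := by positivity
  set eta : ℝ := δ / 2 with heta
  have hetapos : 0 < eta := by positivity
  refine ⟨outerDom (numRange A) ‖A‖ e eta h0 hW hepos hetapos, eta, ⟨hetapos, ?_⟩, ?_⟩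
  · intro s x
    by_cases hx : x = 0
    · subst hx; simp
    have h1 := le_suppFn hW (inner_mem_of_ne_zero A hx) s
    have h2 := outerDom_ge h0 hW hepos hetapos s
    have hn : 0 < ‖x‖ ^ 2 := by positivity
    have h3 : (ee (-s) * inner ℂ x (A x)).re =
        (ee (-s) * (inner ℂ x (A x) / ((‖x‖ : ℂ) ^ 2))).re * ‖x‖ ^ 2 := by
      have hn' : ((‖x‖ : ℂ) ^ 2) ≠ 0 := by
        exact_mod_cast hn.ne'
      have h4 : ee (-s) * inner ℂ x (A x) =
          ((‖x‖ ^ 2 : ℝ) : ℂ) * (ee (-s) * (inner ℂ x (A x) / ((‖x‖ : ℂ) ^ 2))) := by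
        push_cast
        rw [mul_left_comm, mul_div_cancel₀ _ hn']
      rw [h4, Complex.re_ofReal_mul]
      ring
    rw [h3]
    gcongr
    linarith
  · intro z hz
    have hz' : ∀ s, (ee (-s) * z).re ≤ suppFn (numRange A) s + δ := by
      intro s
      have h1 := hz s
      have h2 := outerDom_le h0 hW hepos hetapos s
      have h3 : 4 * e * ‖A‖ + eta ≤ δ := by
        have h4 : 4 * e * ‖A‖ ≤ δ / 2 := by
          rw [he]
          have : 4 * (δ / (8 * (‖A‖ + 1))) * ‖A‖ = (δ / 2) * (‖A‖ / (‖A‖ + 1)) := by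
            field_simp; ring
          rw [this]
          have h5 : ‖A‖ / (‖A‖ + 1) ≤ 1 := by
            rw [div_le_one (by positivity)]; linarith
          have h6 : 0 ≤ δ / 2 := by positivity
          nlinarith
        linarith
      linarith
    obtain ⟨v, hv, hzv⟩ := near_of_support ⟨0, h0⟩ (convex_numRange A) hW hδ.le hz'
    have hvM : ‖v‖ ≤ ‖A‖ := by
      have hcl : closure (numRange A) ⊆ Metric.closedBall (0:ℂ) ‖A‖ := by
        refine closure_minimal (fun w hw => ?_) Metric.isClosed_closedBall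
        simpa using hW w hw
      simpa using hcl hv
    have h1 := hd z v hvM hzv
    have h2 := le_sSup_closure hW hg hv
    linarith

end approx

section compress

variable {H : Type*} [NormedAddCommGroup H] [InnerProductSpace ℂ H]
variable {ι κ : Type*} [Fintype ι] [Fintype κ]

/-- The operator matrix `(F i j)(A)` has norm at most `c` between the Hilbert sums. -/
def MatBd (A : H →L[ℂ] H) (F : Matrix ι κ ℂ[X]) (c : ℝ) : Prop :=
  ∀ x : κ → H, ∑ i, ‖∑ j, aeval A (F i j) (x j)‖ ^ 2 ≤ c ^ 2 * ∑ j, ‖x j‖ ^ 2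

/-- compression to the span of the orbits -/
theorem matBd_of_fin {D : Dom} {A : H →L[ℂ] H} {η : ℝ} (hA : D.Inside A η)
    (F : Matrix ι κ ℂ[X]) {c : ℝ}
    (core : ∀ (V : Submodule ℂ H) [FiniteDimensional ℂ V] (B : V →L[ℂ] V),
      D.Inside B η → MatBd B F c) : MatBd A F c := by
  intro x
  set N : ℕ := ∑ i, ∑ j, (F i j).natDegree with hN
  have hdeg : ∀ i j, (F i j).natDegree ≤ N := by
    intro i j
    calc (F i j).natDegree ≤ ∑ j, (F i j).natDegree :=
          Finset.single_le_sum (f := fun j => (F i j).natDegree) (fun _ _ => Nat.zero_le _)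
            (Finset.mem_univ j)
      _ ≤ N := Finset.single_le_sum (f := fun i => ∑ j, (F i j).natDegree)
            (fun _ _ => Nat.zero_le _) (Finset.mem_univ i)
  set V : Submodule ℂ H :=
    Submodule.span ℂ ((fun p : κ × ℕ => (A ^ p.2) (x p.1)) '' (Set.univ ×ˢ Set.Iic N)) with hV
  have : FiniteDimensional ℂ V :=
    FiniteDimensional.span_of_finite ℂ ((Set.finite_univ.prod (Set.finite_Iic _)).image _)
  have : CompleteSpace V := FiniteDimensional.complete ℂ V
  have hmem : ∀ j k, k ≤ N → (A ^ k) (x j) ∈ V := fun j k hk =>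
    Submodule.subset_span ⟨(j, k), ⟨Set.mem_univ _, hk⟩, rfl⟩
  set B : V →L[ℂ] V := V.orthogonalProjectionOnto ∘L A ∘L V.subtypeL with hB
  have hBin : ∀ v : V, inner ℂ v (B v) = inner ℂ (v : H) (A v) := by
    intro v
    have h1 : B v = V.orthogonalProjectionOnto (A v) := rfl
    rw [h1]
    exact Submodule.inner_orthogonalProjectionOnto_eq_of_mem_left v (A v)
  have hBI : D.Inside B η := by
    refine ⟨hA.1, fun s v => ?_⟩
    rw [hBin]
    have := hA.2 s (v : H)
    rwa [Submodule.coe_norm]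
  have hx0 : ∀ j, x j ∈ V := fun j => by
    simpa only [pow_zero, one_apply_eq_self] using hmem j 0 (Nat.zero_le _)
  have hpow : ∀ j k, k ≤ N → (((B ^ k) ⟨x j, hx0 j⟩ : V) : H) = (A ^ k) (x j) := by
    intro j k
    induction k with
    | zero => intro _; simp only [pow_zero, one_apply_eq_self]
    | succ k ih =>
      intro hk
      have h1 := ih (by omega)
      rw [pow_succ', pow_succ']
      have h2 : (B * B ^ k) ⟨x j, hx0 j⟩ = B ((B ^ k) ⟨x j, hx0 j⟩) := rfl
      have h3 : (A * A ^ k) (x j) = A ((A ^ k) (x j)) := rfl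
      rw [h2, h3]
      have h4 : B ((B ^ k) ⟨x j, hx0 j⟩) = V.orthogonalProjectionOnto (A ((A ^ k) (x j))) := by
        rw [← h1]
        rfl
      rw [h4]
      have h5 : A ((A ^ k) (x j)) ∈ V := by
        have := hmem j (k+1) hk
        rwa [pow_succ'] at this
      exact congrArg Subtype.val (Submodule.orthogonalProjectionOnto_mem_subspace_eq_self (K := V)
        ⟨A ((A ^ k) (x j)), h5⟩)
  have hPB : ∀ i j, ((aeval B (F i j) ⟨x j, hx0 j⟩ : V) : H) = aeval A (F i j) (x j) := by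
    intro i j
    rw [aeval_eq_sum_range, aeval_eq_sum_range]
    simp only [sum_apply, smul_apply]
    rw [Submodule.coe_sum]
    refine Finset.sum_congr rfl fun k hk => ?_
    rw [Finset.mem_range] at hk
    have := hdeg i j
    rw [Submodule.coe_smul, hpow j k (by omega)]
  have h := core V B hBI (fun j => ⟨x j, hx0 j⟩)
  have e1 : ∀ i, ‖∑ j, aeval B (F i j) (⟨x j, hx0 j⟩ : V)‖
      = ‖∑ j, aeval A (F i j) (x j)‖ := by
    intro i
    rw [← Submodule.norm_coe, Submodule.coe_sum]
    congr 1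
    exact Finset.sum_congr rfl fun j _ => hPB i j
  simp only [e1] at h
  exact h

end compress

section red

variable {H : Type*} [NormedAddCommGroup H] [InnerProductSpace ℂ H]
variable {ι κ : Type*} [Fintype ι] [Fintype κ] [DecidableEq κ]

open scoped Matrix.Norms.L2Operator


theorem continuous_mat (F : Matrix ι κ ℂ[X]) :
    Continuous fun z : ℂ => ‖F.map (Polynomial.eval z)‖ := by
  have h : Continuous fun z : ℂ => F.map (Polynomial.eval z) := by
    refine continuous_matrix fun i j => ?_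
    simp only [Matrix.map_apply]
    exact (F i j).continuous
  exact h.norm

/-- Reduction of the matrix-valued estimate to smooth strictly convex domains. -/
theorem reduction_mat [CompleteSpace H] [Nontrivial H] {C : ℝ}
    (main : ∀ (D : Dom) (A : H →L[ℂ] H) (eta : ℝ), D.Inside A eta →
      ∀ (F : Matrix ι κ ℂ[X]) (m : ℝ), (∀ z ∈ D.K, ‖F.map (Polynomial.eval z)‖ ≤ m) →
        MatBd A F (C * m))
    (A : H →L[ℂ] H) (F : Matrix ι κ ℂ[X]) :
    MatBd A F (C * sSup ((fun z => ‖F.map (Polynomial.eval z)‖) '' numRange A)) := by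
  obtain ⟨c, x, hx, hcx⟩ := numRange_nonempty A
  set B : H →L[ℂ] H := A - algebraMap ℂ (H →L[ℂ] H) c with hB
  set Q : Matrix ι κ ℂ[X] := F.map (fun P => P.comp (Polynomial.X + Polynomial.C c)) with hQ
  have hBv : ∀ v : H, ‖v‖ = 1 → inner ℂ v (B v) = inner ℂ v (A v) - c := by
    intro v hv
    rw [hB]
    simp only [sub_apply, ContinuousLinearMap.algebraMap_apply,
      inner_sub_right, inner_smul_right]
    rw [inner_self_eq_norm_sq_to_K, hv]; simp
  have hQe : ∀ z, Q.map (Polynomial.eval z) = F.map (Polynomial.eval (z + c)) := by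
    intro z
    ext i j
    simp [hQ, Matrix.map_apply]
  have hBW : (fun z => ‖Q.map (Polynomial.eval z)‖) '' numRange B
      = (fun z => ‖F.map (Polynomial.eval z)‖) '' numRange A := by
    ext r
    constructor
    · rintro ⟨_, ⟨v, hv, rfl⟩, rfl⟩
      refine ⟨inner ℂ v (A v), ⟨v, hv, rfl⟩, ?_⟩
      simp only [hQe, hBv v hv, sub_add_cancel]
    · rintro ⟨_, ⟨v, hv, rfl⟩, rfl⟩
      refine ⟨inner ℂ v (B v), ⟨v, hv, rfl⟩, ?_⟩
      simp only [hQe, hBv v hv, sub_add_cancel]
  have hBQ : ∀ i j, Polynomial.aeval B (Q i j) = Polynomial.aeval A (F i j) := by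
    intro i j
    have : Q i j = (F i j).comp (Polynomial.X + Polynomial.C c) := rfl
    rw [this, Polynomial.aeval_comp]
    congr 1
    simp [hB]
  have h0 : (0:ℂ) ∈ numRange B := ⟨x, hx, by rw [hBv x hx, hcx, sub_self]⟩
  set S : ℝ := sSup ((fun z => ‖F.map (Polynomial.eval z)‖) '' numRange A) with hS
  have hS0 : 0 ≤ S := Real.sSup_nonneg (by rintro _ ⟨z, -, rfl⟩; exact norm_nonneg _)
  intro v
  -- for every ε
  have key : ∀ ε : ℝ, 0 < ε →
      ∑ i, ‖∑ j, aeval A (F i j) (v j)‖ ^ 2 ≤ (C * (S + ε)) ^ 2 * ∑ j, ‖v j‖ ^ 2 := by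
    intro ε hε
    obtain ⟨D, eta, hAD, hPD⟩ := exists_dom_of_zero_mem' B h0 (continuous_mat Q) hε
    rw [hBW] at hPD
    have h1 := main D B eta hAD Q _ hPD v
    simpa only [hBQ] using h1
  have hcont : Tendsto (fun ε : ℝ => (C * (S + ε)) ^ 2 * ∑ j, ‖v j‖ ^ 2) (𝓝[>] 0)
      (𝓝 ((C * (S + 0)) ^ 2 * ∑ j, ‖v j‖ ^ 2)) := by
    refine Tendsto.mono_left ?_ nhdsWithin_le_nhds
    exact Continuous.tendsto (by fun_prop) 0
  rw [add_zero] at hcont
  exact ge_of_tendsto hcont (eventually_nhdsWithin_of_forall fun ε hε => key ε hε)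

end red

end Vale.Agent.P123.H290
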