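import Vale.Agent.P123.H290.Main
import Vale.Agent.P123.H880.Defs

/-! # P123: the constant two is the least for matrices of every size -/

open Polynomial Filter Topology Set

namespace Vale.Agent.P123.H290

open Vale.Agent.P123 Vale.Agent.P123.H880
open scoped Matrix.Norms.L2Operator

theorem norm_matrix_single {m n : Type*} [Fintype m] [Fintype n] [DecidableEq m] [DecidableEq n]
    (i : m) (j : n) (a : ℂ) : ‖Matrix.single i j a‖ = ‖a‖ := by
  have h := Matrix.l2_opNorm_conjTranspose_mul_self (Matrix.single i j a)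
  rw [Matrix.conjTranspose_single, Matrix.single_mul_single_same, ← Matrix.diagonal_single,
    Matrix.l2_opNorm_diagonal, Pi.norm_single, norm_mul, norm_star] at h
  exact ((mul_self_inj (norm_nonneg _) (norm_nonneg _)).1 h).symm

theorem norm_entry_le {H : Type*} [NormedAddCommGroup H] [InnerProductSpace ℂ H]
    {ι κ : Type*} [Fintype ι] [Fintype κ] (T : Matrix ι κ (H →L[ℂ] H)) (i : ι) (j : κ) :
    ‖T i j‖ ≤ ‖opMatrix T‖ := by
  classical
  refine ContinuousLinearMap.opNorm_le_bound _ (ContinuousLinearMap.opNorm_nonneg _) fun x => ?_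
  have h1 := sq_of_norm_opMatrix_le T le_rfl (Pi.single j x)
  have h2 : ∀ i, ∑ k, T i k ((Pi.single j x : κ → H) k) = T i j x := by
    intro i
    rw [Finset.sum_eq_single j]
    · rw [Pi.single_eq_same]
    · intro k _ hk
      rw [Pi.single_eq_of_ne hk, map_zero]
    · intro h; exact absurd (Finset.mem_univ _) h
  have h3 : ∑ k, ‖(Pi.single j x : κ → H) k‖ ^ 2 = ‖x‖ ^ 2 := by
    rw [Finset.sum_eq_single j]
    · rw [Pi.single_eq_same]
    · intro k _ hk
      rw [Pi.single_eq_of_ne hk]; simp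
    · intro h; exact absurd (Finset.mem_univ _) h
  simp only [h2, h3] at h1
  have h4 : ‖T i j x‖ ^ 2 ≤ (‖opMatrix T‖ * ‖x‖) ^ 2 := by
    rw [mul_pow]
    exact (Finset.single_le_sum (f := fun i => ‖T i j x‖ ^ 2) (fun _ _ => sq_nonneg _)
      (Finset.mem_univ i)).trans h1
  exact (pow_le_pow_iff_left₀ (norm_nonneg _)
    (mul_nonneg (ContinuousLinearMap.opNorm_nonneg _) (norm_nonneg _)) two_ne_zero).1 h4

theorem two_le_complete.{u} {m n : ℕ} (hm : 0 < m) (hn : 0 < n) {C : ℝ}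
    (hC : ∀ (H : Type u) [NormedAddCommGroup H] [InnerProductSpace ℂ H] [CompleteSpace H]
      [Nontrivial H] (A : H →L[ℂ] H) (F : Matrix (Fin m) (Fin n) ℂ[X]),
      ‖opMatrix (F.map fun p => aeval A p)‖ ≤
        C * sSup ((fun z => ‖F.map fun p => p.eval z‖) '' W A)) : 2 ≤ C := by
  apply Vale.Agent.P123.two_le_of_bound (C := C)
  intro H _ _ _ _ A P
  have h := hC H A (Matrix.single ⟨0, hm⟩ ⟨0, hn⟩ P)
  have h1 : ‖aeval A P‖ ≤
      ‖opMatrix ((Matrix.single (⟨0, hm⟩ : Fin m) (⟨0, hn⟩ : Fin n) P).map fun p => aeval A p)‖ := by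
    have := norm_entry_le
      ((Matrix.single (⟨0, hm⟩ : Fin m) (⟨0, hn⟩ : Fin n) P).map fun p => aeval A p)
      ⟨0, hm⟩ ⟨0, hn⟩
    rwa [Matrix.map_apply, Matrix.single_apply_same] at this
  have h2 : ∀ z : ℂ, ‖(Matrix.single (⟨0, hm⟩ : Fin m) (⟨0, hn⟩ : Fin n) P).map
      fun p => p.eval z‖ = ‖P.eval z‖ := by
    intro z
    rw [← norm_matrix_single (⟨0, hm⟩ : Fin m) (⟨0, hn⟩ : Fin n) (P.eval z)]
    congr 1
    ext i j
    rw [Matrix.map_apply, Matrix.single_apply, Matrix.single_apply]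
    split_ifs <;> simp
  simp only [h2] at h
  exact h1.trans h

end Vale.Agent.P123.H290
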