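import Vale.Agent.P123.H290.Defs
import Vale.Agent.P123.H880.Defs

/-! # P123: definitions of the statement of the complete Crouzeix theorem -/

open Polynomial
open scoped Matrix.Norms.L2Operator

namespace Vale.Agent.P123.H290

open Vale.Agent.P123.H880

/-- The norm of the operator given by a matrix of bounded operators on `H` between the Hilbert sums
`H^n` and `H^m` of copies of `H`. -/
noncomputable def opMatrixNorm {H : Type*} [NormedAddCommGroup H] [InnerProductSpace ℂ H]
    {m n : ℕ} (T : Matrix (Fin m) (Fin n) (H →L[ℂ] H)) : ℝ := ‖opMatrix T‖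

/-- The supremum over the numerical range `W(A)` of the (Euclidean operator) norm of a
matrix-valued function. -/
noncomputable def supW {H : Type*} [NormedAddCommGroup H] [InnerProductSpace ℂ H] {m n : ℕ}
    (A : H →L[ℂ] H) (f : ℂ → Matrix (Fin m) (Fin n) ℂ) : ℝ := sSup ((fun z => ‖f z‖) '' W A)

/-- `P(A) Q(A)⁻¹` -/
noncomputable def ratOp {H : Type*} [NormedAddCommGroup H] [InnerProductSpace ℂ H]
    (A : H →L[ℂ] H) (P Q : ℂ[X]) : H →L[ℂ] H := aeval A P * Ring.inverse (aeval A Q)

/-- `C` is a constant in Crouzeix's inequality for all `m × n` matrices of polynomials, for all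
bounded operators on all nonzero complex Hilbert spaces. -/
def MatConst.{u} (m n : ℕ) (C : ℝ) : Prop := ∀ (H : Type u) [NormedAddCommGroup H]
  [InnerProductSpace ℂ H] [CompleteSpace H] [Nontrivial H] (A : H →L[ℂ] H)
  (F : Matrix (Fin m) (Fin n) ℂ[X]),
  opMatrixNorm (F.map fun p => aeval A p) ≤ C * supW A fun z => F.map fun p => p.eval z

/-- `C` is a constant in Crouzeix's inequality for all `m × n` matrices of rational functions
`F_ij/Q` without poles in the closure of the numerical range (and `Q(A)` is then invertible). -/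
def MatRatConst.{u} (m n : ℕ) (C : ℝ) : Prop := ∀ (H : Type u) [NormedAddCommGroup H]
  [InnerProductSpace ℂ H] [CompleteSpace H] [Nontrivial H] (A : H →L[ℂ] H)
  (F : Matrix (Fin m) (Fin n) ℂ[X]) (Q : ℂ[X]), NoZero A Q → IsUnit (aeval A Q) ∧
  opMatrixNorm (F.map fun p => ratOp A p Q) ≤ C * supW A fun z => F.map fun p => p.eval z / Q.eval z

end Vale.Agent.P123.H290
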